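import Crest.Agent.N255.Vx.In
import Crest.Agent.N255.Core.Gen

-- ▼ part N255/Vx/Wg
section

/-!
# Row 255, vertex count (helper7): weights on one wall
-/

set_option autoImplicit false
set_option linter.unusedSectionVars false

namespace N255.Vx

open Finset N255.Dr N255.Dr.O N255.Core LaurentPolynomial

variable {p : ℕ} [Fact p.Prime] {s : Type} [Fintype s] [DecidableEq s] {Γ : Type} [AddCommGroup Γ]
  {δ : Γ}

/-- indicator of the far variables -/
def fi (w : Wall p Γ δ s) (b : Bool) (i : s) : ℤ := if w.kd i = some (!b) then 1 else 0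

/-- pure weight, raised by one on the far variables -/
def fq (w : Wall p Γ δ s) (N : ℕ) (b : Bool) (i : s) : ℤ := N + w.F i + fi w b i

/-- the exponent weight of `y` on the `L` side -/
def jq (w : Wall p Γ δ s) (b : Bool) (i : s) : ℤ := if b = false ∧ w.kd i = none then 1 else 0

/-- twice the main weight plus the second weight -/
def vq (w : Wall p Γ δ s) (N La : ℕ) (b : Bool) (i : s) : ℤ :=
  if w.kd i = none then 2 * La + jq w b i else 2 * fq w N b i

variable {w : Wall p Γ δ s} {N La : ℕ} {b : Bool} {al : s} {x : Ix s}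

theorem mem_nr {i : s} : i ∈ w.nr b ↔ w.kd i = some b ∨ (b = true ∧ w.kd i = none) := by
  simp [Wall.nr]

theorem ne_of_nr {i : s} (h : i ∈ w.nr b) : w.kd i ≠ some (!b) := by
  rcases mem_nr.1 h with h | h
  · rw [h]; cases b <;> simp
  · rw [h.2]; simp

theorem fi_nonneg (i : s) : 0 ≤ fi w b i := by unfold fi; split_ifs <;> simp

theorem wt_fi_nonneg (x : Ix s) : 0 ≤ wt 0 (fi w b) (fi w b) x := by
  have h1 := sum_nonneg (s := univ) fun i _ =>
    mul_nonneg (by omega : (0 : ℤ) ≤ x.2.1 i) (fi_nonneg (w := w) (b := b) i)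
  have h2 := sum_nonneg (s := x.2.2) fun i _ => fi_nonneg (w := w) (b := b) i
  unfold wt; omega

theorem wt_fi_pos (h : ¬ w.NoFar b x) : 1 ≤ wt 0 (fi w b) (fi w b) x := by
  simp only [Wall.NoFar, not_forall] at h
  obtain ⟨i, hi, h⟩ := h
  have e : fi w b i = 1 := if_pos hi
  have h1 := single_le_sum (f := fun i => (x.2.1 i : ℤ) * fi w b i) (fun i _ =>
    mul_nonneg (by omega) (fi_nonneg i)) (mem_univ i)
  have h2 := sum_nonneg (s := x.2.2) fun i _ => fi_nonneg (w := w) (b := b) i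
  simp only [e, mul_one] at h1
  unfold wt
  by_cases h3 : x.2.1 i = 0
  · have h4 : i ∈ x.2.2 := by tauto
    have := single_le_sum (f := fi w b) (fun i _ => fi_nonneg i) h4
    omega
  · omega

theorem wt_fq (x : Ix s) :
    wt 0 (fq w N b) (fq w N b) x = w.wF N x + wt 0 (fi w b) (fi w b) x := by
  simp only [Wall.wF, wt, fq, mul_add, sum_add_distrib]
  ring

theorem wt_jq (x : Ix s) : wt 1 (jq w b) 0 x = w.jw b x := by
  simp only [Wall.jw, wt, jq, one_mul, Pi.zero_apply, sum_const_zero, add_zero, mul_ite, mul_one,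
    mul_zero]

theorem wt_vq (x : Ix s) : wt (4 * La + 1) (vq w N La b) (fun i => 2 * fq w N b i) x =
    2 * w.wW N La x + w.jw b x + 2 * wt 0 (fi w b) (fi w b) x := by
  rw [← wt_jq]
  have : ∀ i, vq w N La b i = 2 * (if w.kd i = none then (La : ℤ) else N + w.F i) + jq w b i +
      2 * fi w b i := fun i => by
    unfold vq fq jq fi
    by_cases h : w.kd i = none
    · simp [h]
    · simp only [h, and_false, if_false]; ring
  simp only [Wall.wW, wt, this, fq, mul_add, sum_add_distrib, mul_sum, Pi.zero_apply,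
    sum_const_zero, mul_left_comm _ (2 : ℤ)]
  ring

theorem sum_ld (hal : w.kd al = none) (g : s → ℤ) : ∑ i, ((w.ld b al).2.1 i : ℤ) * g i =
    ∑ i ∈ w.nr b, ((p - 1 : ℕ) : ℤ) * g i + if b = true then -g al else g al := by
  have hp := (Fact.out : p.Prime).two_le
  have : ∀ i, ((w.ld b al).2.1 i : ℤ) * g i = (if i ∈ w.nr b then ((p - 1 : ℕ) : ℤ) * g i else 0) +
      if i = al then (if b = true then -g al else g al) else 0 := fun i => by
    unfold Wall.ld
    by_cases h : i = al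
    · subst h
      cases b
      · simp [mem_nr, hal]
      · simp only [mem_nr, hal, if_true, and_self, or_true]
        rw [Nat.cast_sub hp, Nat.cast_sub (by omega)]
        push_cast; ring
    · simp only [h, if_false, add_zero]
      split_ifs <;> simp
  simp only [this, sum_add_distrib, sum_ite_mem, univ_inter, sum_ite_eq', mem_univ, if_true]

theorem sum_h0 (j : ℤ) (g : s → ℤ) : ∑ i, ((w.h0 b j).2.1 i : ℤ) * g i =
    ∑ i ∈ w.nr b, ((p - 1 : ℕ) : ℤ) * g i := by
  have : ∀ i, ((w.h0 b j).2.1 i : ℤ) * g i =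
      if i ∈ w.nr b then ((p - 1 : ℕ) : ℤ) * g i else 0 := fun i => by
    unfold Wall.h0
    split_ifs with h <;> simp [h]
  simp only [this, sum_ite_mem, univ_inter]

theorem fi_nr {i : s} (h : i ∈ w.nr b) : fi w b i = 0 := if_neg (ne_of_nr h)

theorem fi_ld (hal : w.kd al = none) : wt 0 (fi w b) (fi w b) (w.ld b al) = 0 := by
  have : fi w b al = 0 := if_neg (by rw [hal]; simp)
  rw [wt, sum_ld hal, this, sum_eq_zero fun i hi => by rw [fi_nr hi, mul_zero],
    sum_eq_zero (s := (w.ld b al).2.2) fun i hi => fi_nr (w := w) (b := b) hi]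
  simp

theorem fi_h0 (j : ℤ) : wt 0 (fi w b) (fi w b) (w.h0 b j) = 0 := by
  rw [wt, sum_h0, sum_eq_zero fun i hi => by rw [fi_nr hi, mul_zero],
    sum_eq_zero (s := (w.h0 b j).2.2) fun i hi => fi_nr (w := w) (b := b) hi]
  simp

theorem jq_nr {i : s} (h : i ∈ w.nr b) : jq w b i = 0 := by
  refine if_neg ?_
  rintro ⟨rfl, h2⟩
  simp [mem_nr, h2] at h

theorem ld_j (hal : w.kd al = none) : w.jw b (w.ld b al) = 0 := by
  rw [← wt_jq, wt, sum_ld hal, sum_eq_zero fun i hi => by rw [jq_nr hi, mul_zero]]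
  cases b <;> simp [jq, hal, Wall.ld]

theorem ld_w (hal : w.kd al = none) :
    wt (4 * La + 1) (vq w N La b) (fun i => 2 * fq w N b i) (w.ld b al) =
      ∑ i ∈ w.nr b, (((p - 1 : ℕ) : ℤ) * vq w N La b i + 2 * fq w N b i) - 2 * La := by
  rw [wt, sum_ld hal, sum_add_distrib]
  cases b <;> simp [vq, jq, hal, Wall.ld] <;> ring

theorem h0_w (j : ℤ) : wt 0 (fq w N b) (fq w N b) (w.h0 b j) =
    ∑ i ∈ w.nr b, (((p - 1 : ℕ) : ℤ) * fq w N b i + fq w N b i) := by
  rw [wt, sum_h0, sum_add_distrib]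
  simp [Wall.h0]

theorem lt_j (hG : w.Gd N La b al) (hb : ∀ i, x.2.1 i < p) (hx : w.Lt N La b al x) :
    0 ≤ wt 1 (jq w b) 0 x := by
  rw [wt_jq]
  refine hG.qz x hb ?_
  unfold Wall.Lt at hx
  split_ifs at hx
  exacts [hx.1, hx.le]

theorem lt_w (hG : w.Gd N La b al) (hal : w.kd al = none) (hb : ∀ i, x.2.1 i < p)
    (hx : w.Lt N La b al x) :
    wt (4 * La + 1) (vq w N La b) (fun i => 2 * fq w N b i) (w.ld b al) + 1 ≤
      wt (4 * La + 1) (vq w N La b) (fun i => 2 * fq w N b i) x := by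
  have h1 := lt_j hG hb hx
  have h2 := wt_fi_nonneg (w := w) (b := b) x
  rw [wt_jq] at h1
  rw [wt_vq, wt_vq, ld_j hal, fi_ld hal]
  unfold Wall.Lt at hx
  split_ifs at hx with hb'
  · rcases hx.1.lt_or_eq with h | h
    · omega
    by_cases h3 : w.NoFar b x
    · rcases hG.gen hb' x hb h3 h.symm with ⟨be, h4, h5⟩ | h4
      · exact absurd h5 (hx.2 be h4)
      · have : w.jw b x = x.1 := by simp [Wall.jw, hb']
        omega
    · have := wt_fi_pos h3
      omega
  · omega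

theorem hm_lt (hp : ∀ i, 0 < N + w.F i) (hb : ∀ i, x.2.1 i < p) (hx : w.Hm N b x) :
    (x = w.h0 b x.1 ∧ 0 ≤ x.1) ∨
      wt 0 (fq w N b) (fq w N b) (w.h0 b 0) + 1 ≤ wt 0 (fq w N b) (fq w N b) x := by
  refine hx.imp id fun ⟨hne, hx⟩ => ?_
  have h2 := wt_fi_nonneg (w := w) (b := b) x
  rw [wt_fq, wt_fq, fi_h0]
  split_ifs at hx with hb'
  swap
  · omega
  by_cases h3 : w.NoFar b x
  swap
  · have := wt_fi_pos h3
    omega
  exfalso
  subst hb'
  have hn : ∀ i, i ∉ w.nr true → w.kd i = some (!true) := fun i hi => by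
    rw [mem_nr] at hi
    rcases hk : w.kd i with _ | _ | _ <;> simp_all
  have hp' : ∀ i, (0 : ℤ) < N + w.F i := fun i => by have := hp i; omega
  have ha : ∀ i, x.2.1 i ≤ (w.h0 true 0).2.1 i := fun i => by
    unfold Wall.h0
    by_cases hi : i ∈ w.nr true
    · have := hb i
      simp only [hi, if_true]; omega
    · rw [(h3 i (hn i hi)).1]; exact Nat.zero_le _
  have hS : x.2.2 ⊆ w.nr true := fun i hi => by_contra fun h => (h3 i (hn i h)).2 hi
  have e1 : ∀ i ∈ univ, (x.2.1 i : ℤ) * (N + w.F i) ≤ ((w.h0 true 0).2.1 i : ℤ) * (N + w.F i) :=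
    fun i _ => mul_le_mul_of_nonneg_right (by exact_mod_cast ha i) (hp' i).le
  have e2 := sum_le_sum e1
  have e3 := sum_le_sum_of_subset_of_nonneg (f := fun i => (N + w.F i : ℤ)) hS
    fun i _ _ => (hp' i).le
  simp only [Wall.wF, wt, zero_mul, zero_add] at hx
  have e4 : (w.h0 true 0).2.2 = w.nr true := rfl
  rw [e4] at hx
  have e5 := (sum_eq_sum_iff_of_le e1).1 (by omega)
  have e6 : x.2.2 = w.nr true := by
    by_contra hne'
    obtain ⟨i, hi, hi'⟩ := exists_of_ssubset (hS.ssubset_of_ne hne')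
    have := sum_lt_sum_of_subset (f := fun i => (N + w.F i : ℤ)) hS hi hi' (hp' i)
      fun i _ _ => (hp' i).le
    omega
  refine hne (Prod.ext rfl (Prod.ext (funext fun i => ?_) e6))
  exact_mod_cast mul_right_cancel₀ (hp' i).ne' (e5 i (mem_univ i))

end N255.Vx
end

-- ▼ part N255/Vx/Geo

/-!
# Row 255, vertex count (helper7): the variables at a vertex and their weights
-/

set_option autoImplicit false
set_option linter.unusedSectionVars false

namespace N255.Vx

open Finset N255.Dr N255.Dr.O N255.Core LaurentPolynomial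

variable {p : ℕ} [Fact p.Prime] {Γ : Type} [AddCommGroup Γ] {δ : Γ} {s : Fin 3 → Type}
  [∀ i, Fintype (s i)] [∀ i, DecidableEq (s i)] {w : ∀ i, Wall p Γ δ (s i)} {t : Fin 3 → Bool}
  {V : Type} [Fintype V] [DecidableEq V]

/-- a vertex with an inverse of the naming map -/
structure Su {N La : ℕ} (v : VxG w t N La V) where
  pr : V → (Σ i, s i) × Bool
  ok : ∀ x, Ok w t (pr x)
  em_pr : ∀ x, v.em (pr x) = x
  pos : ∀ i x, 0 < N + (w i).F x
  le : ∀ i x, (w i).kd x = none → N + (w i).F x ≤ La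

/-- the Gaussian indices -/
def xi (w : ∀ i, Wall p Γ δ (s i)) (t : Fin 3 → Bool) (q : (Σ i, s i) × Bool) : Prop :=
  t q.1.1 = false ∧ (w q.1.1).kd q.1.2 = none

instance (q : (Σ i, s i) × Bool) : Decidable (xi w t q) := by unfold xi; infer_instance

theorem ok_xi {q : (Σ i, s i) × Bool} (h : xi w t q) : Ok w t q := by
  obtain ⟨q, b⟩ := q
  cases b
  · exact Or.inl ⟨rfl, by rw [h.2]; simp⟩
  · exact Or.inr ⟨rfl, h⟩

theorem ok_ne {i : Fin 3} {x : s i} (h : (w i).kd x ≠ some (!t i)) : Ok w t (⟨i, x⟩, false) :=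
  Or.inl ⟨rfl, h⟩

theorem ok_cases {q : (Σ i, s i) × Bool} (h : Ok w t q) :
    xi w t q ∨ (q.2 = false ∧ q.1.2 ∈ (w q.1.1).nr (t q.1.1)) := by
  rcases h with ⟨h1, h2⟩ | h
  · rw [mem_nr, xi]
    rcases hk : (w q.1.1).kd q.1.2 with _ | b
    · cases t q.1.1 <;> simp [h1]
    · rw [hk] at h2
      cases b <;> cases ht : t q.1.1 <;> simp_all
  · exact Or.inl h.2

theorem not_xi {i : Fin 3} {x : s i} (h : x ∈ (w i).nr (t i)) (b : Bool) :
    ¬ xi w t (⟨i, x⟩, b) := by
  rintro ⟨h1, h2⟩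
  rcases mem_nr.1 h with h | h
  · simp only at h2; rw [h2] at h; simp at h
  · simp only at h1; rw [h1] at h; simp at h

theorem hi_mem {FV : V → ℕ} {n : ℕ} {f : O p (ZMod p) V} (h : Hi FV n f) (c : ℕ) (wu : ℤ)
    (wd : V → ℤ) : (Om.fn (bc (Au p) f) : Om p (Au p) V) ∈
      (fil p wu (fun x => c * FV x) wd).ge (c * (n + 1)) := by
  refine fn_bc_mem fun a ha => ?_
  have h1 : ((n + 1 : ℕ) : ℤ) ≤ ((∑ x, a x * FV x : ℕ) : ℤ) := by exact_mod_cast h a ha
  push_cast at h1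
  simp only [mul_left_comm _ (c : ℤ), ← mul_sum]
  exact mul_le_mul_of_nonneg_left h1 (by omega)

theorem hi_mx {FV : V → ℕ} {n : ℕ} {f : O p (ZMod p) V} (h : Hi FV n f) : f ∈ mx :=
  mem_mx.2 (by_contra fun h0 => by simpa using h 0 (by rwa [cf_zero]))

namespace Su

variable {N La : ℕ} {v : VxG w t N La V} (U : Su v)

theorem pr_em {q : (Σ i, s i) × Bool} (h : Ok w t q) : U.pr (v.em q) = q :=
  v.inj (U.ok _) h (U.em_pr _)

/-- the exponent weight of the `y` of the `L` slots -/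
def jV (x : V) : ℤ := if xi w t (U.pr x) ∧ (U.pr x).2 = false then 1 else 0

/-- the main weight -/
def wV (x : V) : ℤ :=
  if (w (U.pr x).1.1).kd (U.pr x).1.2 = none then 2 * La + U.jV x else 2 * v.FV x

theorem jV_nonneg (x : V) : 0 ≤ U.jV x := by unfold jV; split_ifs <;> simp

theorem FV_le {x : V} (h : (w (U.pr x).1.1).kd (U.pr x).1.2 = none) : v.FV x ≤ La := by
  have h1 := U.ok x
  have h2 := U.em_pr x
  generalize U.pr x = q at *
  obtain ⟨⟨i, y⟩, _ | _⟩ := q
  · rw [← h2, v.hF i y h1]; exact U.le i y h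
  · rw [← h2]; exact (v.hm i y h1).2

theorem fV_le (x : V) : ((2 : ℕ) : ℤ) * v.FV x ≤ U.wV x := by
  have h3 := U.jV_nonneg x
  unfold wV
  split_ifs with h
  · have := U.FV_le h
    push_cast; omega
  · exact le_rfl

theorem to_wV {wu r : ℤ} {wd : V → ℤ} {ω : Om p (Au p) V}
    (h : ω ∈ (fil p wu (fun x => ((2 : ℕ) : ℤ) * v.FV x) wd).ge r) :
    ω ∈ (fil p wu U.wV wd).ge r :=
  fil_mono (fun x _ hx => hx.trans (by
    simp only [wt]
    have := sum_le_sum (s := univ) fun i _ =>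
      mul_le_mul_of_nonneg_left (U.fV_le i) (by omega : (0 : ℤ) ≤ x.2.1 i)
    omega)) h

end Su

/-- the pure filtration, scaled by `c` -/
noncomputable abbrev pf (FV : V → ℕ) (c : ℕ) (wu : ℤ) : Fil (Om p (Au p) V) :=
  fil p wu (fun x => c * FV x) fun x => c * FV x

/-- congruence of a substituted variable with its name -/
structure Nm (FV : V → ℕ) (g : O p (ZMod p) V) (x : V) : Prop where
  f0 : ∀ c wu, 0 < c → (pf FV c wu).Cg (c * FV x) (Om.fn (bc (Au p) g))
    (Om.fn (bc (Au p) (z x : O p (ZMod p) V)))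
  f1 : ∀ c wu, 0 < c → (pf FV c wu).Cg (c * FV x) (Om.d (Om.fn (bc (Au p) g)))
    (Om.d (Om.fn (bc (Au p) (z x : O p (ZMod p) V))))
  mx : g ∈ mx

theorem nm_refl (FV : V → ℕ) (x : V) : Nm FV (z x : O p (ZMod p) V) x :=
  ⟨fun _ _ _ => .refl (by rw [bc_z]; exact z_mem' x), fun _ _ _ => .refl (by
    rw [bc_z, Om.d_z]; exact dz_mem x), z_mem x⟩

theorem nm_hi {FV : V → ℕ} {g : O p (ZMod p) V} {x : V} (h : Hi FV (FV x) (g - z x)) :
    Nm FV g x := by
  have h1 : ∀ (c : ℕ) (wu : ℤ), 0 < c → (Om.fn (bc (Au p) (g - z x)) : Om p (Au p) V) ∈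
      (pf FV c wu).ge (c * FV x + 1) := fun c wu hc =>
    Fil.mono _ (hi_mem h c wu _) (by rw [mul_add]; omega)
  refine ⟨fun c wu hc => ⟨((nm_refl FV x).f0 c wu hc).rt, ?_⟩,
    fun c wu hc => ⟨((nm_refl FV x).f1 c wu hc).rt, ?_⟩, by simpa using add_mem (hi_mx h) (z_mem x)⟩
  · rw [← map_sub, ← map_sub]; exact h1 c wu hc
  · rw [← map_sub, ← map_sub, ← map_sub]; exact d_mem (fun _ => le_rfl) (h1 c wu hc)

section

variable {N La : ℕ} (v : VxG w t N La V)

theorem nm_io {i : Fin 3} {x : s i} (h : (w i).kd x ≠ some (!t i)) :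
    Nm v.FV (v.io i (z x)) (v.em (⟨i, x⟩, false)) := by
  rcases hk : (w i).kd x with _ | b
  · rw [v.hy i x hk]; exact nm_refl _ _
  · have hb : b = t i := by
      rw [hk] at h
      cases b <;> cases ht : t i <;> simp_all
    refine nm_hi ?_
    rw [v.hF i x (ok_ne h)]
    exact v.near i x (hb ▸ hk)

theorem nm_rho (q : Xi w t) : Nm v.FV (v.rho (z q)) (v.em q.1) := nm_hi (v.hrho q)

theorem io_mx (i : Fin 3) (x : s i) : v.io i (z x) ∈ mx := by
  by_cases h : (w i).kd x = some (!t i)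
  · exact hi_mx (v.far i x h)
  · exact (nm_io v h).mx

theorem fV_em {i : Fin 3} {x : s i} (h : (w i).kd x ≠ some (!t i)) :
    (v.FV (v.em (⟨i, x⟩, false)) : ℤ) = fq (w i) N (t i) x := by
  rw [v.hF i x (ok_ne h), fq, fi, if_neg h, add_zero, Nat.cast_add]

theorem io_f0 (c : ℕ) (hc : 0 < c) (wu : ℤ) (i : Fin 3) (x : s i) :
    (Om.fn (bc (Au p) (v.io i (z x))) : Om p (Au p) V) ∈
      (pf v.FV c wu).ge (c * fq (w i) N (t i) x) := by
  by_cases h : (w i).kd x = some (!t i)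
  · rw [fq, fi, if_pos h, ← Nat.cast_add]
    exact hi_mem (v.far i x h) c wu _
  · rw [← fV_em v h]
    exact ((nm_io v h).f0 c wu hc).lt

theorem io_f1 (c : ℕ) (hc : 0 < c) (wu : ℤ) (i : Fin 3) (x : s i) :
    (Om.d (Om.fn (bc (Au p) (v.io i (z x)))) : Om p (Au p) V) ∈
      (pf v.FV c wu).ge (c * fq (w i) N (t i) x) :=
  d_mem (fun _ => le_rfl) (io_f0 v c hc wu i x)

end

namespace Su

variable {N La : ℕ} {v : VxG w t N La V} (U : Su v)

theorem jV_em {i : Fin 3} {x : s i} (h : (w i).kd x ≠ some (!t i)) :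
    U.jV (v.em (⟨i, x⟩, false)) = jq (w i) (t i) x := by
  rw [jV, U.pr_em (ok_ne h), jq]
  simp only [xi, and_true]

theorem wV_em {i : Fin 3} {x : s i} (h : (w i).kd x ≠ some (!t i)) :
    U.wV (v.em (⟨i, x⟩, false)) = vq (w i) N La (t i) x := by
  rw [wV, U.jV_em h, fV_em v h, U.pr_em (ok_ne h), vq]

/-- the main filtration -/
noncomputable abbrev WW : Fil (Om p (Au p) V) :=
  fil p (4 * La + 1) U.wV fun x => ((2 : ℕ) : ℤ) * v.FV x

/-- the second filtration -/
noncomputable abbrev JJ : Fil (Om p (Au p) V) := fil p 1 U.jV 0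

theorem io_w0 (i : Fin 3) (x : s i) : (Om.fn (bc (Au p) (v.io i (z x))) :
    Om p (Au p) V) ∈ U.WW.ge (vq (w i) N La (t i) x) := by
  by_cases h : (w i).kd x = none
  · rw [v.hy i x h, ← U.wV_em (by rw [h]; simp), bc_z]
    exact z_mem' _
  · rw [vq, if_neg h]
    exact U.to_wV (io_f0 v 2 two_pos _ i x)

theorem io_w1 (i : Fin 3) (x : s i) : (Om.d (Om.fn (bc (Au p) (v.io i (z x)))) :
    Om p (Au p) V) ∈ U.WW.ge (2 * fq (w i) N (t i) x) := U.to_wV (io_f1 v 2 two_pos _ i x)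

theorem cg_w0 {i : Fin 3} {x : s i} (h : (w i).kd x ≠ some (!t i)) :
    U.WW.Cg (vq (w i) N La (t i) x) (Om.fn (bc (Au p) (v.io i (z x))))
      (Om.fn (bc (Au p) (z (v.em (⟨i, x⟩, false)) : O p (ZMod p) V))) := by
  by_cases h' : (w i).kd x = none
  · have := U.io_w0 i x
    rw [v.hy i x h'] at this ⊢
    exact .refl this
  · have := (nm_io v h).f0 2 (4 * La + 1) two_pos
    rw [vq, if_neg h', ← fV_em v h]
    exact ⟨U.to_wV this.rt, U.to_wV this.sub⟩

theorem cg_w1 {g : O p (ZMod p) V} {x : V} (h : Nm v.FV g x) :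
    U.WW.Cg (2 * v.FV x) (Om.d (Om.fn (bc (Au p) g)))
      (Om.d (Om.fn (bc (Au p) (z x : O p (ZMod p) V)))) :=
  ⟨U.to_wV (h.f1 2 _ two_pos).rt, U.to_wV (h.f1 2 _ two_pos).sub⟩

end Su

theorem bc_mem0 {wu : ℤ} {wz wd : V → ℤ} (h : ∀ x, 0 ≤ wz x) (f : O p (ZMod p) V) :
    (Om.fn (bc (Au p) f) : Om p (Au p) V) ∈ (fil p wu wz wd).ge 0 :=
  fn_bc_mem fun _ _ => sum_nonneg fun i _ => mul_nonneg (by omega) (h i)

theorem d_bc_mem0 {wu : ℤ} {wz : V → ℤ} (h : ∀ x, 0 ≤ wz x) (f : O p (ZMod p) V) :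
    (Om.d (Om.fn (bc (Au p) f)) : Om p (Au p) V) ∈ (fil p wu wz 0).ge 0 :=
  fil_mono (wu := wu) (wz := 0) (wd := 0) (fun x _ hx => hx.trans (by
    unfold wt
    have := sum_nonneg (s := univ) fun i _ => mul_nonneg (by omega : (0 : ℤ) ≤ x.2.1 i) (h i)
    simp only [Pi.zero_apply, mul_zero, sum_const_zero]
    omega)) (d_mem (fun _ => le_rfl) (bc_mem0 (fun _ => le_rfl) f))


/-! ### sums and products over the variables of the vertex -/

/-- the `y` variables of the `L` slots -/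
abbrev Bi (w : ∀ i, Wall p Γ δ (s i)) (t : Fin 3 → Bool) : Type :=
  {q : Σ i, s i // t q.1 = false ∧ (w q.1).kd q.2 = none}

/-- the Gaussian variables come in pairs -/
def xiEquiv : Bi w t × Bool ≃ Xi w t where
  toFun q := ⟨(q.1.1, q.2), q.1.2⟩
  invFun q := (⟨q.1.1, q.2⟩, q.1.2)
  left_inv _ := rfl
  right_inv _ := rfl

theorem Su.prod_eq {N La : ℕ} {v : VxG w t N La V} (U : Su v) {M : Type*} [CommMonoid M]
    (g : V → M) : ∏ x, g x = (∏ i, ∏ x ∈ (w i).nr (t i), g (v.em (⟨i, x⟩, false))) *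
      ∏ q : Xi w t, g (v.em q.1) := by
  classical
  rw [← prod_filter_mul_prod_filter_not univ (fun x => ¬ xi w t (U.pr x)), prod_sigma']
  congr 1
  · refine (prod_bij (fun q _ => v.em (q, false)) ?_ ?_ ?_ fun _ _ => rfl).symm
    · rintro ⟨i, x⟩ hq
      have hx := (mem_sigma.1 hq).2
      simp only [mem_filter, mem_univ, true_and]
      rw [U.pr_em (ok_ne (ne_of_nr hx))]
      exact not_xi hx _
    · rintro ⟨i, x⟩ hq ⟨j, y⟩ hq' h
      exact congrArg Prod.fst (v.inj (ok_ne (ne_of_nr (mem_sigma.1 hq).2))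
        (ok_ne (ne_of_nr (mem_sigma.1 hq').2)) h)
    · intro x hx
      simp only [mem_filter, mem_univ, true_and] at hx
      obtain ⟨h1, h2⟩ := (ok_cases (U.ok x)).resolve_left hx
      refine ⟨(U.pr x).1, mem_sigma.2 ⟨mem_univ _, h2⟩, ?_⟩
      rw [← h1]; exact U.em_pr x
  · refine (prod_bij (fun q _ => v.em q.1) ?_ ?_ ?_ fun _ _ => rfl).symm
    · intro q _
      simp only [mem_filter, mem_univ, true_and, not_not]
      rw [U.pr_em (ok_xi q.2)]
      exact q.2
    · intro q _ q' _ h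
      exact Subtype.ext (v.inj (ok_xi q.2) (ok_xi q'.2) h)
    · intro x hx
      simp only [mem_filter, mem_univ, true_and, not_not] at hx
      exact ⟨⟨U.pr x, hx⟩, mem_univ _, U.em_pr x⟩

theorem Su.sum_eq {N La : ℕ} {v : VxG w t N La V} (U : Su v) {M : Type*} [AddCommMonoid M]
    (g : V → M) : ∑ x, g x = (∑ i, ∑ x ∈ (w i).nr (t i), g (v.em (⟨i, x⟩, false))) +
      ∑ q : Xi w t, g (v.em q.1) :=
  U.prod_eq (M := Multiplicative M) g

theorem prod_xi {M : Type*} [CommMonoid M] (g : Xi w t → M) :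
    ∏ q, g q = ∏ b : Bi w t, g (xiEquiv (b, false)) * g (xiEquiv (b, true)) := by
  rw [← Equiv.prod_comp xiEquiv, Fintype.prod_prod_type]
  exact prod_congr rfl fun b _ => by rw [Fintype.prod_bool, mul_comm]

theorem sum_xi {M : Type*} [AddCommMonoid M] (g : Xi w t → M) :
    ∑ q, g q = ∑ b : Bi w t, (g (xiEquiv (b, false)) + g (xiEquiv (b, true))) :=
  prod_xi (M := Multiplicative M) g

theorem card_xi : Fintype.card (Xi w t) = 2 * Fintype.card (Bi w t) := by
  rw [← Fintype.card_congr xiEquiv]; simp [mul_comm]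

end N255.Vx
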