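import Crest.Agent.N255.Dr.Om
import Crest.Agent.N255.Core.Stm

-- ▼ part N255/Vx/Abs
section

/-!
# Row 255, vertex count (helper7): multiplicative filtrations
-/

set_option autoImplicit false

namespace N255.Vx

open Finset N255.Dr

/-- a multiplicative filtration indexed by the integers -/
structure Fil (B : Type*) [Ring B] where
  ge : ℤ → AddSubgroup B
  anti : ∀ {s t : ℤ}, s ≤ t → ge t ≤ ge s
  one : (1 : B) ∈ ge 0
  mul : ∀ {s t : ℤ} {a b : B}, a ∈ ge s → b ∈ ge t → a * b ∈ ge (s + t)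

namespace Fil

variable {B : Type*} [Ring B] (F : Fil B)

theorem mono {s t : ℤ} {a : B} (h : a ∈ F.ge t) (hst : s ≤ t) : a ∈ F.ge s := F.anti hst h

theorem mul' {s t r : ℤ} {a b : B} (ha : a ∈ F.ge s) (hb : b ∈ F.ge t) (h : r ≤ s + t) :
    a * b ∈ F.ge r := F.mono (F.mul ha hb) h

theorem natCast (n : ℕ) : (n : B) ∈ F.ge 0 := by
  simpa using (F.ge 0).nsmul_mem F.one n

theorem pow {s : ℤ} {a : B} (ha : a ∈ F.ge s) (n : ℕ) : a ^ n ∈ F.ge (n * s) := by
  induction n with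
  | zero => simpa using F.one
  | succ n ih => rw [pow_succ]; exact F.mul' ih ha (by push_cast; linarith)

/-- pull back of a filtration -/
def comap {C : Type*} [Ring C] (f : C →+* B) : Fil C where
  ge t := (F.ge t).comap f.toAddMonoidHom
  anti h _ ha := F.anti h ha
  one := by simpa [AddSubgroup.mem_comap] using F.one
  mul ha hb := by
    simp only [AddSubgroup.mem_comap, RingHom.toAddMonoidHom_eq_coe, AddMonoidHom.coe_coe,
      map_mul] at *
    exact F.mul ha hb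

theorem mem_comap {C : Type*} [Ring C] (f : C →+* B) {t : ℤ} {a : C} :
    a ∈ (F.comap f).ge t ↔ f a ∈ F.ge t := Iff.rfl

/-- `a` and `b` have weight `≥ t` and the same leading part -/
structure Cg (t : ℤ) (a b : B) : Prop where
  rt : b ∈ F.ge t
  sub : a - b ∈ F.ge (t + 1)

variable {F}

theorem Cg.lt {t : ℤ} {a b : B} (h : F.Cg t a b) : a ∈ F.ge t := by
  have := add_mem (F.mono h.sub (by omega : t ≤ t + 1)) h.rt
  simpa using this

theorem Cg.refl {t : ℤ} {a : B} (h : a ∈ F.ge t) : F.Cg t a a := ⟨h, by simp⟩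

theorem Cg.mul {s t : ℤ} {a b a' b' : B} (h : F.Cg s a a') (h' : F.Cg t b b') :
    F.Cg (s + t) (a * b) (a' * b') := by
  refine ⟨F.mul h.rt h'.rt, ?_⟩
  have : a * b - a' * b' = (a - a') * b + a' * (b - b') := by noncomm_ring
  rw [this]
  exact add_mem (F.mul' h.sub h'.lt (by omega)) (F.mul' h.rt h'.sub (by omega))

theorem Cg.of_eq {s t : ℤ} {a b : B} (h : F.Cg s a b) (e : s = t) : F.Cg t a b := e ▸ h

theorem Cg.trans {t : ℤ} {a b c : B} (h : F.Cg t a b) (h' : F.Cg t b c) : F.Cg t a c :=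
  ⟨h'.rt, by simpa using add_mem h.sub h'.sub⟩

theorem Cg.zsmul {t : ℤ} {a b : B} (h : F.Cg t a b) (n : ℤ) : F.Cg t (n • a) (n • b) :=
  ⟨zsmul_mem h.rt n, by rw [← smul_sub]; exact zsmul_mem h.sub n⟩

theorem Cg.one : F.Cg 0 1 1 := Cg.refl F.one

theorem Cg.pow {t : ℤ} {a b : B} (h : F.Cg t a b) (n : ℕ) : F.Cg (n * t) (a ^ n) (b ^ n) := by
  induction n with
  | zero => simpa using Cg.one
  | succ n ih => rw [pow_succ, pow_succ]; exact (ih.mul h).of_eq (by push_cast; ring)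

end Fil

section Comm

variable {B : Type*} [CommRing B] {F : Fil B}

theorem Fil.Cg.prod {ι : Type*} (s : Finset ι) {t : ι → ℤ} {a b : ι → B}
    (h : ∀ i ∈ s, F.Cg (t i) (a i) (b i)) : F.Cg (∑ i ∈ s, t i) (∏ i ∈ s, a i) (∏ i ∈ s, b i) := by
  classical
  induction s using Finset.induction_on with
  | empty => simpa using Fil.Cg.one
  | insert i s hi ih =>
    rw [sum_insert hi, prod_insert hi, prod_insert hi]
    exact (h i (mem_insert_self _ _)).mul (ih fun j hj => h j (mem_insert_of_mem hj))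

theorem Fil.prod {ι : Type*} (s : Finset ι) {t : ι → ℤ} {a : ι → B}
    (h : ∀ i ∈ s, a i ∈ F.ge (t i)) : ∏ i ∈ s, a i ∈ F.ge (∑ i ∈ s, t i) :=
  (Fil.Cg.prod s fun i hi => Fil.Cg.refl (h i hi)).lt

theorem Fil.tx_mem (p : ℕ) {x : B} (hx : x ∈ F.ge 0) : tx p x ∈ F.ge 0 :=
  sum_mem fun n _ => F.mul' (F.natCast _) (F.pow hx n) (by simp)

theorem Fil.tx_sub {p : ℕ} [Fact p.Prime] (hp : (p : B) = 0) {l : ℤ} (hl : 0 ≤ l) {x : B}
    (hx : x ∈ F.ge l) : tx p x - 1 - x ∈ F.ge (2 * l) := by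
  have : tx p x - 1 - x = x ^ 2 * ∑ n ∈ range (p - 2), (ic p (n + 2) : B) * x ^ n := by
    rw [tx_eq hp]; ring
  rw [this]
  refine F.mul' (F.pow hx 2) (t := 0) (sum_mem fun n _ => F.mul' (F.natCast _) (F.pow hx n) ?_)
    (by simp)
  positivity

/-- the exponential of a sum of terms of weight `≥ l` -/
theorem Fil.prod_tx {p : ℕ} [Fact p.Prime] (hp : (p : B) = 0) {l : ℤ} (hl : 0 ≤ l) {ι : Type*}
    (s : Finset ι) {x : ι → B} (hx : ∀ i ∈ s, x i ∈ F.ge l) :
    ∏ i ∈ s, tx p (x i) - 1 - ∑ i ∈ s, x i ∈ F.ge (2 * l) := by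
  classical
  induction s using Finset.induction_on with
  | empty => simp
  | insert i s hi ih =>
    have ih' := ih fun j hj => hx j (mem_insert_of_mem hj)
    have hi' := hx i (mem_insert_self _ _)
    have h1 := Fil.tx_sub hp hl hi'
    have hs : ∑ j ∈ s, x j ∈ F.ge l := sum_mem fun j hj => hx j (mem_insert_of_mem hj)
    have h2 : ∏ j ∈ s, tx p (x j) - 1 ∈ F.ge l := by
      simpa using add_mem (F.mono ih' (by omega : l ≤ 2 * l)) hs
    have h3 : tx p (x i) - 1 ∈ F.ge l := by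
      simpa using add_mem (F.mono h1 (by omega : l ≤ 2 * l)) hi'
    rw [prod_insert hi, sum_insert hi]
    have : tx p (x i) * ∏ j ∈ s, tx p (x j) - 1 - (x i + ∑ j ∈ s, x j) =
        (tx p (x i) - 1) * (∏ j ∈ s, tx p (x j) - 1) + (tx p (x i) - 1 - x i) +
          (∏ j ∈ s, tx p (x j) - 1 - ∑ j ∈ s, x j) := by ring
    rw [this]
    exact add_mem (add_mem (F.mul' h3 h2 (by omega)) h1) ih'

end Comm

/-- the right hand side of the vertex count -/
theorem rhs_abs {B M : Type*} [Ring B] [AddCommGroup M] (W J : Fil B) (I : B →+ M) {T l θ : ℤ}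
    {w : Fin 3 → ℤ} {η x : Fin 3 → B} {G E ψ Θ Θ0 : B}
    (hW : ∀ a ∈ W.ge (T + 1), I a = 0) (hJ : ∀ a ∈ J.ge 0, I a = 0)
    (hη : ∀ i, W.Cg (w i) (η i) (x i)) (hηJ : ∀ i, η i ∈ J.ge 0) (hG : G ∈ W.ge 0)
    (hGJ : G ∈ J.ge 0) (hΘ : W.Cg θ Θ Θ0) (hΘJ : Θ ∈ J.ge 0) (hψ : ψ ∈ W.ge l)
    (hE : E - 1 - ψ ∈ W.ge (l + 1)) (hT : T = w 0 + w 1 + w 2 + θ + l) :
    I (η 0 * η 1 * η 2 * Θ * (G * E)) = I (x 0 * x 1 * x 2 * Θ0 * (G * ψ)) := by
  have h1 := (((hη 0).mul (hη 1)).mul (hη 2)).mul hΘ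
  have h2 := h1.mul (Fil.Cg.refl (W.mul hG hψ))
  have e1 := hW _ (W.mono h2.sub (by omega))
  have e2 := hW _ (W.mul' h1.lt (W.mul hG hE) (by omega))
  have e3 := hJ _ (J.mul' (J.mul (J.mul (J.mul (hηJ 0) (hηJ 1)) (hηJ 2)) hΘJ) hGJ (by omega))
  have : η 0 * η 1 * η 2 * Θ * (G * E) = η 0 * η 1 * η 2 * Θ * G +
      η 0 * η 1 * η 2 * Θ * (G * (E - 1 - ψ)) + (η 0 * η 1 * η 2 * Θ * (G * ψ) -
        x 0 * x 1 * x 2 * Θ0 * (G * ψ)) + x 0 * x 1 * x 2 * Θ0 * (G * ψ) := by noncomm_ring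
  rw [this, map_add, map_add, map_add, e1, e2, e3]
  simp

/-- the lexicographic filtration of two filtrations -/
def Lx {B : Type*} [Ring B] (F J : Fil B) (s t : ℤ) (a : B) : Prop :=
  ∃ b, b ∈ F.ge s ∧ b ∈ J.ge t ∧ a - b ∈ F.ge (s + 1)

theorem Lx.mul {B : Type*} [Ring B] {F J : Fil B} {s t s' t' : ℤ} {a a' : B} (h : Lx F J s t a)
    (h' : Lx F J s' t' a') : Lx F J (s + s') (t + t') (a * a') := by
  obtain ⟨b, h1, h2, h3⟩ := h
  obtain ⟨b', h1', h2', h3'⟩ := h'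
  exact ⟨b * b', F.mul h1 h1', J.mul h2 h2', ((Fil.Cg.mk h1 h3).mul ⟨h1', h3'⟩).sub⟩

theorem Lx.eq_zero {B M : Type*} [Ring B] [AddCommGroup M] {F J : Fil B} (I : B →+ M) {s t : ℤ}
    {a : B} (h : Lx F J s t a) (hF : ∀ a ∈ F.ge (s + 1), I a = 0) (hJ : ∀ a ∈ J.ge t, I a = 0) :
    I a = 0 := by
  obtain ⟨b, -, h2, h3⟩ := h
  have := hF _ h3
  rw [map_sub, hJ _ h2] at this
  simpa using this

/-! ### ring homomorphisms out of the de Rham algebra -/

section Hom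

variable {p : ℕ} {K : Type} [CommRing K] {σ : Type} [Fintype σ] [DecidableEq σ]
  {B : Type*} [Ring B] {F : Fil B}

theorem cg_e (Φ Ψ : Om p K σ →+* B) {wd : σ → ℤ} (S : Finset σ)
    (hd : ∀ i ∈ S, F.Cg (wd i) (Φ (Om.dz i)) (Ψ (Om.dz i))) :
    F.Cg (∑ i ∈ S, wd i) (Φ (Om.e S)) (Ψ (Om.e S)) := by
  induction S using Finset.induction_on with
  | empty => simpa using Fil.Cg.one
  | insert i S hi ih =>
    rw [Om.e_insert hi, sum_insert hi, map_zsmul, map_zsmul, map_mul, map_mul]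
    exact ((hd i (mem_insert_self _ _)).mul (ih fun j hj => hd j (mem_insert_of_mem hj))).zsmul _

omit [DecidableEq σ] in
theorem cg_zm (Φ Ψ : Om p K σ →+* B) {wz : σ → ℤ} (a : σ → ℕ)
    (hz : ∀ i, a i ≠ 0 → F.Cg (wz i) (Φ (Om.fn (O.z i))) (Ψ (Om.fn (O.z i)))) :
    F.Cg (∑ i, a i * wz i) (Φ (Om.fn (O.zm a))) (Ψ (Om.fn (O.zm a))) := by
  classical
  unfold O.zm
  have : ∀ s : Finset σ, F.Cg (∑ i ∈ s, a i * wz i) (Φ (Om.fn (∏ i ∈ s, O.z i ^ a i)))
      (Ψ (Om.fn (∏ i ∈ s, O.z i ^ a i))) := fun s => by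
    induction s using Finset.induction_on with
    | empty => simpa using Fil.Cg.one
    | insert i s hi ih =>
      rw [sum_insert hi, prod_insert hi]
      simp only [map_mul, map_pow]
      refine Fil.Cg.mul ?_ (by simpa only [map_mul, map_pow] using ih)
      by_cases h : a i = 0
      · simpa [h] using Fil.Cg.one
      · exact (hz i h).pow _
  exact this univ

end Hom

end N255.Vx
end

-- ▼ part N255/Vx/In

/-!
# Row 255, vertex count (helper7): monomial supports and weight filtrations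
-/

set_option autoImplicit false
set_option linter.unusedSectionVars false

namespace N255.Vx

open Finset N255.Dr N255.Dr.O N255.Core LaurentPolynomial

variable {p : ℕ} [Fact p.Prime] {s : Type} [Fintype s] [DecidableEq s]

/-- the coefficient of a monomial form -/
noncomputable def cu (x : Ix s) : Om p (Au p) s →+ ZMod p where
  toFun ω := (Om.co x.2.1 x.2.2 ω).coeff x.1
  map_zero' := by simp
  map_add' a b := by simp

omit [DecidableEq s] in
theorem cu_apply (x : Ix s) (ω : Om p (Au p) s) :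
    cu x ω = (Om.co x.2.1 x.2.2 ω).coeff x.1 := rfl

omit [DecidableEq s] in
theorem cu_smul (x : Ix s) (c : ZMod p) (ω : Om p (Au p) s) : cu x (c • ω) = c * cu x ω := by
  rw [cu_apply, cu_apply, ← algebraMap_smul (Au p) c ω, map_smul, algebraMap_smul]
  simp

theorem cu_mu (x y : Ix s) :
    cu x (mu y : Om p (Au p) s) = if x = y ∧ ∀ i, x.2.1 i < p then 1 else 0 := by
  obtain ⟨j, a, S⟩ := x
  obtain ⟨j', a', S'⟩ := y
  rw [cu_apply, mu, map_smul, Om.co_mon]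
  by_cases h : (a = a' ∧ S = S') ∧ ∀ i, a i < p
  · rw [if_pos h]
    obtain ⟨⟨rfl, rfl⟩, h⟩ := h
    simp [eq_comm, h]
  · rw [if_neg h, if_neg]
    · simp
    · rintro ⟨h1, h2⟩
      simp only [Prod.mk.injEq] at h1
      exact h ⟨h1.2, h2⟩

/-- the forms supported on `P` -/
def Sb (p : ℕ) [Fact p.Prime] (P : Ix s → Prop) : AddSubgroup (Om p (Au p) s) where
  carrier := {ω | In P ω}
  zero_mem' x hx := by simp at hx
  add_mem' {a b} ha hb x hx := by
    by_contra h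
    apply hx
    have h1 : cu x a = 0 := by_contra fun h' => h (ha x h')
    have h2 : cu x b = 0 := by_contra fun h' => h (hb x h')
    change cu x (a + b) = 0
    rw [map_add, h1, h2, add_zero]
  neg_mem' {a} ha x hx := ha x fun h => hx (by
    change cu x (-a) = 0
    rw [map_neg, neg_eq_zero]; exact h)

theorem mem_Sb {P : Ix s → Prop} {ω : Om p (Au p) s} :
    ω ∈ Sb p P ↔ ∀ x, cu x ω ≠ 0 → P x := Iff.rfl

theorem Sb_smul {P : Ix s → Prop} {ω : Om p (Au p) s} (h : ω ∈ Sb p P) (c : ZMod p) :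
    c • ω ∈ Sb p P := fun x hx => h x fun h0 => hx (by
  change cu x (c • ω) = 0
  rw [cu_smul]; exact mul_eq_zero_of_right _ h0)

theorem mu_mem {P : Ix s → Prop} {x : Ix s} (h : P x) : (mu x : Om p (Au p) s) ∈ Sb p P :=
  mem_Sb.2 fun y hy => by
    rw [cu_mu] at hy
    split_ifs at hy with h'
    · exact h'.1 ▸ h
    · exact absurd rfl hy

theorem Sb_mono {P P' : Ix s → Prop} (h : ∀ x, (∀ i, x.2.1 i < p) → P x → P' x)
    {ω : Om p (Au p) s} (hω : ω ∈ Sb p P) : ω ∈ Sb p P' := fun x hx =>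
  h x (by_contra fun h' => hx (by rw [Om.co_of_not h']; simp)) (hω x hx)

theorem Sb_ind {P : Ix s → Prop} {Q : Om p (Au p) s → Prop} (h0 : Q 0)
    (hadd : ∀ a b, Q a → Q b → Q (a + b))
    (hm : ∀ (c : ZMod p) (x : Ix s), P x → (∀ i, x.2.1 i < p) → Q (c • mu x))
    {ω : Om p (Au p) s} (hω : ω ∈ Sb p P) : Q ω := by
  rw [← Om.sum_co ω]
  refine sum_induction _ Q hadd h0 fun a ha => sum_induction _ Q hadd h0 fun S _ => ?_
  rw [← AddMonoidAlgebra.sum_coeff_single (Om.co a S ω), Finsupp.sum, sum_smul]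
  refine sum_induction _ Q hadd h0 fun j hj => ?_
  have := hm ((Om.co a S ω).coeff j) (j, a, S) (hω (j, a, S) (Finsupp.mem_support_iff.1 hj))
    (mem_box.1 ha)
  rwa [mu, ← smul_assoc, smul_eq_C_mul, ← single_eq_C_mul_T] at this

theorem mu_mul (x y : Ix s) : (mu x : Om p (Au p) s) * mu y =
    sg x.2.2 y.2.2 • mu (x.1 + y.1, x.2.1 + y.2.1, x.2.2 ∪ y.2.2) := by
  rw [mu, mu, mu, smul_mul_smul_comm, Om.mon_mul, T_add, smul_comm]

omit [Fact p.Prime] in
theorem wt_add (wu : ℤ) (wz wd : s → ℤ) (x y : Ix s) (h : Disjoint x.2.2 y.2.2) :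
    wt wu wz wd (x.1 + y.1, x.2.1 + y.2.1, x.2.2 ∪ y.2.2) = wt wu wz wd x + wt wu wz wd y := by
  simp only [wt, sum_union h, Pi.add_apply, Nat.cast_add, add_mul, sum_add_distrib]
  ring

/-- the filtration of a weight -/
noncomputable def fil (p : ℕ) [Fact p.Prime] (wu : ℤ) (wz wd : s → ℤ) : Fil (Om p (Au p) s) where
  ge t := Sb p fun x => t ≤ wt wu wz wd x
  anti h _ ha := Sb_mono (fun _ _ hx => h.trans hx) ha
  one := by
    have : (1 : Om p (Au p) s) = mu (0, 0, ∅) := by simp [mu]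
    rw [this]
    exact mu_mem (by simp [wt])
  mul {s' t a b} ha hb := by
    refine Sb_ind (Q := fun a => a * b ∈ _) (by simp) (fun a a' h h' => ?_) (fun c x hx _ => ?_) ha
    · rw [add_mul]; exact add_mem h h'
    refine Sb_ind (Q := fun b => c • mu x * b ∈ _) (by simp) (fun a a' h h' => ?_)
      (fun c' y hy _ => ?_) hb
    · rw [mul_add]; exact add_mem h h'
    rw [smul_mul_smul_comm, mu_mul]
    refine Sb_smul ?_ _
    by_cases h : Disjoint x.2.2 y.2.2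
    · exact zsmul_mem (mu_mem (by rw [wt_add _ _ _ _ _ h]; omega)) _
    · rw [sg_of_not h, zero_smul]; exact zero_mem _

section

variable {wu : ℤ} {wz wd : s → ℤ}


theorem fil_smul {t : ℤ} {ω : Om p (Au p) s} (h : ω ∈ (fil p wu wz wd).ge t) (c : ZMod p) :
    c • ω ∈ (fil p wu wz wd).ge t := Sb_smul h c

theorem cu_eq_zero {x : Ix s} {t : ℤ} (h : wt wu wz wd x < t) {ω : Om p (Au p) s}
    (hω : ω ∈ (fil p wu wz wd).ge t) : cu x ω = 0 :=
  by_contra fun h0 => absurd (hω x h0) (not_le.2 h)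

theorem T_mem (j : ℤ) : algebraMap (Au p) (Om p (Au p) s) (T j) ∈ (fil p wu wz wd).ge (wu * j) := by
  have : algebraMap (Au p) (Om p (Au p) s) (T j) = mu (j, 0, ∅) := by
    simp [mu, Algebra.algebraMap_eq_smul_one]
  rw [this]
  exact mu_mem (by simp [wt])

theorem zm_mem (a : s → ℕ) :
    (Om.fn (zm a) : Om p (Au p) s) ∈ (fil p wu wz wd).ge (∑ i, a i * wz i) := by
  have : (Om.fn (zm a) : Om p (Au p) s) = mu (0, a, ∅) := by simp [mu, Om.mon_empty]
  rw [this]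
  exact mu_mem (by simp [wt])

theorem z_mem' (i : s) : (Om.fn (z i) : Om p (Au p) s) ∈ (fil p wu wz wd).ge (wz i) := by
  have := zm_mem (p := p) (wu := wu) (wz := wz) (wd := wd) (Pi.single i 1)
  rw [zm_single, pow_one, sum_eq_single i (fun j _ hj => by simp [Pi.single_eq_of_ne hj])
    (by simp)] at this
  simpa using this

theorem dz_mem (i : s) : (Om.dz i : Om p (Au p) s) ∈ (fil p wu wz wd).ge (wd i) := by
  have : (Om.dz i : Om p (Au p) s) = mu (0, 0, {i}) := by simp [mu, Om.mon_zero]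
  rw [this]
  exact mu_mem (by simp [wt])

theorem fil_mono {wu' : ℤ} {wz' wd' : s → ℤ} {t t' : ℤ}
    (h : ∀ x : Ix s, (∀ i, x.2.1 i < p) → t ≤ wt wu wz wd x → t' ≤ wt wu' wz' wd' x)
    {ω : Om p (Au p) s} (hω : ω ∈ (fil p wu wz wd).ge t) : ω ∈ (fil p wu' wz' wd').ge t' :=
  Sb_mono h hω

/-- `d` preserves a weight with `wz ≤ wd` -/
theorem d_mem (h : ∀ i, wz i ≤ wd i) {t : ℤ} {ω : Om p (Au p) s}
    (hω : ω ∈ (fil p wu wz wd).ge t) : Om.d ω ∈ (fil p wu wz wd).ge t := by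
  refine Sb_ind (Q := fun a => Om.d a ∈ _) (by simp) (fun a a' h h' => ?_) (fun c x hx _ => ?_) hω
  · rw [map_add]; exact add_mem h h'
  rw [← algebraMap_smul (Au p) c, map_smul, algebraMap_smul, mu, map_smul, Om.d_mon, smul_sum]
  refine Sb_smul (sum_mem fun i _ => ?_) _
  rw [smul_comm]
  by_cases h1 : x.2.1 i = 0
  · simp [h1]
  by_cases h2 : i ∈ x.2.2
  · rw [sg_of_not (by simpa using h2)]; simp
  refine zsmul_mem (mu_mem (x := (x.1, x.2.1 - Pi.single i 1, insert i x.2.2)) (hx.trans ?_)) _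
  simp only [wt, sum_insert h2]
  have : ∑ j, (x.2.1 j : ℤ) * wz j = ∑ j, ((x.2.1 - Pi.single i 1 : s → ℕ) j : ℤ) * wz j + wz i := by
    rw [← sub_eq_iff_eq_add', ← sum_sub_distrib, sum_eq_single i]
    · simp only [Pi.sub_apply, Pi.single_eq_same]
      rw [Nat.cast_sub (by omega)]; push_cast; ring
    · intro j _ hj; simp [Pi.single_eq_of_ne hj]
    · simp
  have := h i
  omega

omit [DecidableEq s] in
theorem fn_bc_smul (c : ZMod p) (f : O p (ZMod p) s) :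
    (Om.fn (bc (Au p) (c • f)) : Om p (Au p) s) = c • Om.fn (bc (Au p) f) := by
  rw [map_smul, ← algebraMap_smul (Au p) c (bc (Au p) f), Om.fn_smul, algebraMap_smul]

omit [DecidableEq s] [Fact p.Prime] in
theorem bc_zm (K : Type) [CommRing K] {k : Type} [CommRing k] [Algebra k K] (a : s → ℕ) :
    bc K (zm a : O p k s) = zm a := by simp [zm]

/-- functions with constant coefficients -/
theorem fn_bc_mem {t : ℤ} {f : O p (ZMod p) s}
    (h : ∀ a : s → ℕ, cf a f ≠ 0 → t ≤ ∑ i, a i * wz i) :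
    (Om.fn (bc (Au p) f) : Om p (Au p) s) ∈ (fil p wu wz wd).ge t := by
  rw [← sum_cf f, map_sum, Om.fn, map_sum]
  refine sum_mem fun a _ => ?_
  change Om.fn _ ∈ _
  by_cases h0 : cf a f = 0
  · simp [h0]
  rw [fn_bc_smul, bc_zm]
  exact fil_smul (Fil.mono _ (zm_mem a) (h a h0)) _

end

/-! ### pull back -/

section

variable {V : Type} [Fintype V] [DecidableEq V]

/-- base change of a substitution -/
noncomputable def up (φ : O p (ZMod p) s →ₐ[ZMod p] O p (ZMod p) V) :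
    O p (Au p) s →ₐ[Au p] O p (Au p) V :=
  lift (fun x => bc (Au p) (φ (z x))) fun x => by
    rw [← map_pow, ← map_pow, z_pow, map_zero, map_zero]

omit [Fintype s] [DecidableEq s] [Fintype V] [DecidableEq V] in
@[simp] theorem up_z (φ : O p (ZMod p) s →ₐ[ZMod p] O p (ZMod p) V) (x : s) :
    up φ (z x) = bc (Au p) (φ (z x)) := lift_z _ _ _

omit [Fintype s] [DecidableEq s] [Fintype V] [DecidableEq V] in
theorem up_bc (φ : O p (ZMod p) s →ₐ[ZMod p] O p (ZMod p) V) (f : O p (ZMod p) s) :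
    up φ (bc (Au p) f) = bc (Au p) (φ f) := by
  have : ((up φ).restrictScalars (ZMod p)).comp (bc (Au p)) = (bc (Au p)).comp φ :=
    hom_ext fun i => by simp
  exact DFunLike.congr_fun this f

/-- pull back of forms -/
noncomputable def PB (φ : O p (ZMod p) s →ₐ[ZMod p] O p (ZMod p) V) :
    Om p (Au p) s →ₐ[Au p] Om p (Au p) V := Om.pb (up φ)

theorem PB_z (φ : O p (ZMod p) s →ₐ[ZMod p] O p (ZMod p) V) (x : s) :
    PB φ (Om.fn (z x)) = Om.fn (bc (Au p) (φ (z x))) := by rw [PB, Om.pb_fn, up_z]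

theorem PB_dz (φ : O p (ZMod p) s →ₐ[ZMod p] O p (ZMod p) V) (x : s) :
    PB φ (Om.dz x) = Om.d (Om.fn (bc (Au p) (φ (z x)))) := by rw [PB, Om.pb_dz, up_z]

theorem PB_d (φ : O p (ZMod p) s →ₐ[ZMod p] O p (ZMod p) V) (ω : Om p (Au p) s) :
    PB φ (Om.d ω) = Om.d (PB φ ω) := Om.pb_d _ _

theorem PB_csmul (φ : O p (ZMod p) s →ₐ[ZMod p] O p (ZMod p) V) (c : ZMod p)
    (ω : Om p (Au p) s) : PB φ (c • ω) = c • PB φ ω := by
  rw [← algebraMap_smul (Au p) c ω, map_smul, algebraMap_smul]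

theorem PB_mu (φ : O p (ZMod p) s →ₐ[ZMod p] O p (ZMod p) V) (x : Ix s) :
    PB φ (mu x) = algebraMap (Au p) _ (T x.1) * (PB φ (Om.fn (zm x.2.1)) * PB φ (Om.e x.2.2)) := by
  rw [mu, Om.mon, map_smul, ← Om.fn_mul, map_mul, Algebra.smul_def]

variable {wu : ℤ} {wz wd : V → ℤ}

theorem cg_mu (φ ψ : O p (ZMod p) s →ₐ[ZMod p] O p (ZMod p) V) {vz vd : s → ℤ} (x : Ix s)
    (hz : ∀ i, x.2.1 i ≠ 0 → (fil p wu wz wd).Cg (vz i) (Om.fn (bc (Au p) (φ (z i))))
      (Om.fn (bc (Au p) (ψ (z i)))))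
    (hd : ∀ i ∈ x.2.2, (fil p wu wz wd).Cg (vd i) (Om.d (Om.fn (bc (Au p) (φ (z i)))))
      (Om.d (Om.fn (bc (Au p) (ψ (z i)))))) :
    (fil p wu wz wd).Cg (wt wu vz vd x) (PB φ (mu x)) (PB ψ (mu x)) := by
  rw [PB_mu, PB_mu]
  have h1 := cg_zm (F := fil p wu wz wd) (PB φ).toRingHom (PB ψ).toRingHom (wz := vz) x.2.1
    fun i hi => by simpa [PB_z] using hz i hi
  have h2 := cg_e (F := fil p wu wz wd) (PB φ).toRingHom (PB ψ).toRingHom (wd := vd) x.2.2
    fun i hi => by simpa [PB_dz] using hd i hi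
  exact ((Fil.Cg.refl (T_mem x.1)).mul (h1.mul h2)).of_eq (by simp [wt, add_assoc])

theorem PB_mem (φ : O p (ZMod p) s →ₐ[ZMod p] O p (ZMod p) V) {vz vd : s → ℤ}
    (hz : ∀ i, Om.fn (bc (Au p) (φ (z i))) ∈ (fil p wu wz wd).ge (vz i))
    (hd : ∀ i, Om.d (Om.fn (bc (Au p) (φ (z i)))) ∈ (fil p wu wz wd).ge (vd i)) {t : ℤ}
    {ω : Om p (Au p) s} (hω : ω ∈ (fil p wu vz vd).ge t) : PB φ ω ∈ (fil p wu wz wd).ge t := by
  refine Sb_ind (Q := fun a => PB φ a ∈ _) (by simp) (fun a a' h h' => ?_) (fun c x hx _ => ?_) hω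
  · rw [map_add]; exact add_mem h h'
  rw [PB_csmul]
  exact fil_smul (Fil.mono _ (cg_mu φ φ x (fun i _ => .refl (hz i)) fun i _ => .refl (hd i)).rt
    hx) _

end

end N255.Vx
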